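import Vale.Agent.Lib.P091.Circ

/-! # P091: classes `φ(L)` on the circle `ℝ/2πℤ` with divergent Fourier series, up to `u √(log u)` -/

open MeasureTheory Filter Topology

namespace Vale.Agent.Results.P091.CircleThreshold

/-- The symmetric partial sum `S_N f(x) = ∑_{|k| ≤ N} f̂(k) e^{ikx}` on the circle `ℝ/2πℤ`
(`fourierCoeff` is taken with respect to the normalized Lebesgue measure). -/
noncomputable def partialSum [Fact (0 < 2 * Real.pi)] (f : AddCircle (2 * Real.pi) → ℂ) (N : ℕ)
    (x : AddCircle (2 * Real.pi)) : ℂ :=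
  ∑ k ∈ Finset.Icc (-(N : ℤ)) N, fourierCoeff f k * fourier k x

/-- Let `φ : [0,∞) → [0,∞)` be nondecreasing.

(1) If every integrable `f` with `∫ φ(|f|) < ∞` has `S_N f → f` almost everywhere, then for some
`c > 0` one has `φ(u) ≥ c u √(log u)` for arbitrarily large `u`.

(2) If `φ(u) = o(u √(log u))`, then there is an integrable `f` with `∫ φ(|f|) < ∞` such that
`S_N f(x)`, `N = 0, 1, 2, …`, is unbounded at every point `x` of the circle; and there is also a
nonnegative integrable `f` with `∫ φ(f) < ∞` such that `S_N f(x)` is unbounded for almost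
every `x`. -/
theorem result [Fact (0 < 2 * Real.pi)] (φ : ℝ → ℝ) (hmono : MonotoneOn φ (Set.Ici 0))
    (hnonneg : ∀ u, 0 ≤ u → 0 ≤ φ u) :
    ((∀ f : AddCircle (2 * Real.pi) → ℂ, Integrable f AddCircle.haarAddCircle →
        Integrable (fun x => φ ‖f x‖) AddCircle.haarAddCircle →
        ∀ᵐ x ∂AddCircle.haarAddCircle,
          Tendsto (fun N : ℕ => partialSum f N x) atTop (𝓝 (f x))) →
      ∃ c : ℝ, 0 < c ∧ ∃ᶠ u in atTop, c * (u * Real.sqrt (Real.log u)) ≤ φ u) ∧
    ((φ =o[atTop] fun u => u * Real.sqrt (Real.log u)) →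
      (∃ f : AddCircle (2 * Real.pi) → ℂ, Measurable f ∧ Integrable f AddCircle.haarAddCircle ∧
        Integrable (fun x => φ ‖f x‖) AddCircle.haarAddCircle ∧
        ∀ x, ¬ BddAbove (Set.range fun N : ℕ => ‖partialSum f N x‖)) ∧
      (∃ f : AddCircle (2 * Real.pi) → ℝ, Measurable f ∧ (∀ x, 0 ≤ f x) ∧
        Integrable f AddCircle.haarAddCircle ∧
        Integrable (fun x => φ (f x)) AddCircle.haarAddCircle ∧
        ∀ᵐ x ∂AddCircle.haarAddCircle,
          ¬ BddAbove (Set.range fun N : ℕ => ‖partialSum (fun t => (f t : ℂ)) N x‖))) := by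
  have hφ := _root_.P091.circ_phi_measurable hmono
  refine ⟨fun hconv => ?_, fun ho => ⟨?_, ?_⟩⟩
  · refine _root_.P091.circ_not_littleO hnonneg fun ho => ?_
    obtain ⟨f, -, hfi, hfφ, hf⟩ := _root_.P091.circ_everywhere φ hmono hnonneg hφ ho
    obtain ⟨x, hx⟩ := (hconv f hfi hfφ).exists
    exact hf x hx.norm.bddAbove_range
  · exact _root_.P091.circ_everywhere φ hmono hnonneg hφ ho
  · exact _root_.P091.circ_nonneg φ hmono hnonneg hφ ho

end Vale.Agent.Results.P091.CircleThreshold
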