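import Vale.Agent.Lib.P091.Ev.Final2

/-! # P091: everywhere divergent Fourier series in `φ(L)` for every `φ(u) = o(u √(log u))` -/

open Finset MeasureTheory

namespace Vale.Agent.Results.P091.SqrtLogEverywhere

/-- The `k`-th Fourier coefficient `(1/2π) ∫_0^{2π} g(x) e^{-ikx} dx`. -/
noncomputable def coeff (g : ℝ → ℂ) (k : ℤ) : ℂ :=
  (1 / (2 * Real.pi) : ℝ) *
    ∫ x in (0 : ℝ)..(2 * Real.pi), g x * Complex.exp (-(k * x * Complex.I))

/-- The symmetric partial sum `S_N g(x) = ∑_{k=-N}^{N} ĝ(k) e^{ikx}`. -/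
noncomputable def partialSum (g : ℝ → ℂ) (N : ℕ) (x : ℝ) : ℂ :=
  ∑ k ∈ Icc (-(N : ℤ)) N, coeff g k * Complex.exp (k * x * Complex.I)

/-- For every nondecreasing `φ : [0,∞) → [0,∞)` with `φ(u) = o(u √(log u))` there is a
`2π`-periodic integrable `f` with `∫ φ(|f|) < ∞` whose Fourier series has unbounded symmetric
partial sums at every point. -/
theorem result (φ : ℝ → ℝ) (hmono : MonotoneOn φ (Set.Ici 0)) (hnonneg : ∀ u, 0 ≤ u → 0 ≤ φ u)
    (ho : φ =o[Filter.atTop] fun u => u * Real.sqrt (Real.log u)) :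
    ∃ f : ℝ → ℂ, Measurable f ∧ (∀ x, f (x + 2 * Real.pi) = f x) ∧
      IntervalIntegrable f volume 0 (2 * Real.pi) ∧
      IntervalIntegrable (fun x => φ ‖f x‖) volume 0 (2 * Real.pi) ∧
      ∀ x : ℝ, ¬ BddAbove (Set.range fun N : ℕ => ‖partialSum f N x‖) :=
  _root_.P091.main2 φ hmono hnonneg ho

end Vale.Agent.Results.P091.SqrtLogEverywhere
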